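import Mathlib

/-!
# P308: perfect and near-perfect matchings (definitions)
-/

namespace Vale.Agent.P308

variable {V : Type*}

/-- The number of perfect matchings of `G`. -/
noncomputable def numPerfect (G : SimpleGraph V) : ℕ :=
  Nat.card {M : G.Subgraph // M.IsPerfectMatching}

/-- The number of near-perfect matchings of `G`: matchings that leave exactly two vertices
uncovered. -/
noncomputable def numNearPerfect (G : SimpleGraph V) : ℕ :=
  Nat.card {M : G.Subgraph // M.IsMatching ∧ (M.vertsᶜ).ncard = 2}

/-- A triangular matching of size `k` from an independent set: edges `y i — z i` with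
`y i` not adjacent to `y j` and to `z j` for `i < j`. -/
def TriangularMatching (G : SimpleGraph V) (k : ℕ) : Prop :=
  ∃ y z : Fin k → V, (∀ i, G.Adj (y i) (z i)) ∧
    ∀ i j, i < j → ¬ G.Adj (y i) (y j) ∧ ¬ G.Adj (y i) (z j)

end Vale.Agent.P308
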