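import Mathlib
import Vale.Agent.P308.Defs

/-!
# P308: partner functions, re-pairing, and the alternating cycle
-/

open Finset

namespace Vale.Agent.P308

variable {V : Type*}

/-- partner function of a perfect matching -/
def PF (G : SimpleGraph V) (g : V → V) : Prop := (∀ w, g (g w) = w) ∧ ∀ w, G.Adj w (g w)

/-- partner function of a near-perfect matching that leaves `u` and `v` uncovered -/
def NF (G : SimpleGraph V) (f : V → V) (u v : V) : Prop :=
  (∀ w, f (f w) = w) ∧ u ≠ v ∧ f u = u ∧ f v = v ∧ ∀ w, w ≠ u → w ≠ v → G.Adj w (f w)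

section rep

variable [DecidableEq V] {G : SimpleGraph V} {f g : V → V} {u v : V}

/-- Re-pairing. -/
theorem repair (hf : NF G f u v) (hg : PF G g) (h : V → V) (S T : Finset V) (hST : S ⊆ T)
    (hS : ∀ w ∈ S, f w ∈ S) (huS : u ∉ S) (hvS : v ∉ S) (hT : ∀ w ∈ T, g w ∈ T)
    (hR : ∀ w ∈ T, w ∉ S → h w ∈ T ∧ h w ∉ S ∧ h (h w) = w ∧ G.Adj w (h w)) :
    PF G (fun w => if w ∈ S then f w else if w ∈ T then h w else g w) := by
  constructor
  · intro w
    by_cases h1 : w ∈ S
    · simp only [h1, if_true, hS w h1]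
      exact hf.1 w
    · by_cases h2 : w ∈ T
      · obtain ⟨a, b, c, _⟩ := hR w h2 h1
        simp only [h1, h2, if_true, if_false, a, b]
        exact c
      · have h3 : g w ∉ T := fun h3 => h2 (by have := hT _ h3; rwa [hg.1] at this)
        have h4 : g w ∉ S := fun h4 => h3 (hST h4)
        simp only [h1, h2, if_false, h3, h4]
        exact hg.1 w
  · intro w
    by_cases h1 : w ∈ S
    · simp only [h1, if_true]
      exact hf.2.2.2.2 w (fun h => huS (h ▸ h1)) (fun h => hvS (h ▸ h1))
    · by_cases h2 : w ∈ T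
      · simp only [h1, h2, if_true, if_false]
        exact (hR w h2 h1).2.2.2
      · simp only [h1, h2, if_false]
        exact hg.2 w

variable [Fintype V]

/-- number of vertices where `f` and `g` agree -/
def agr (f g : V → V) : ℕ := (univ.filter (fun w => f w = g w)).card

/-- If `g` agrees with `f` as much as possible, no re-pairing improves it. -/
theorem repair_max (hf : NF G f u v) (hg : PF G g) (hmax : ∀ g', PF G g' → agr f g' ≤ agr f g)
    (h : V → V) (S T : Finset V) (hST : S ⊆ T)
    (hS : ∀ w ∈ S, f w ∈ S) (huS : u ∉ S) (hvS : v ∉ S) (hT : ∀ w ∈ T, g w ∈ T)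
    (hR : ∀ w ∈ T, w ∉ S → h w ∈ T ∧ h w ∉ S ∧ h (h w) = w ∧ G.Adj w (h w))
    (hne : ∀ w ∈ T, f w ≠ g w) : S = ∅ := by
  have h1 := hmax _ (repair hf hg h S T hST hS huS hvS hT hR)
  simp only [agr] at h1
  have hd : Disjoint (univ.filter (fun w => f w = g w)) S := by
    rw [disjoint_left]
    intro w hw hwS
    exact hne w (hST hwS) (mem_filter.1 hw).2
  have h2 : univ.filter (fun w => f w = g w) ∪ S ⊆
      univ.filter (fun w => f w = (if w ∈ S then f w else if w ∈ T then h w else g w)) := by
    intro w hw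
    rw [mem_filter]
    refine ⟨mem_univ _, ?_⟩
    rcases mem_union.1 hw with hw | hw
    · have hw' := (mem_filter.1 hw).2
      have hT' : w ∉ T := fun hT' => hne w hT' hw'
      have hS' : w ∉ S := fun hS' => hT' (hST hS')
      simp only [hT', hS', if_false]
      exact hw'
    · simp only [hw, if_true]
  have h3 := card_le_card h2
  rw [card_union_of_disjoint hd] at h3
  have h4 : S.card = 0 := by omega
  exact card_eq_zero.1 h4

/-- Outside an invariant set containing `u` and `v` a best `g` agrees with `f`. -/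
theorem agree_off (hf : NF G f u v) (hg : PF G g) (hmax : ∀ g', PF G g' → agr f g' ≤ agr f g)
    (C : V → Prop) (hCf : ∀ w, C w → C (f w)) (hCg : ∀ w, C w → C (g w)) (hu : C u) (hv : C v)
    (w : V) (hw : ¬ C w) : f w = g w := by
  classical
  by_contra hne
  have hS : (univ.filter (fun w => ¬ C w ∧ f w ≠ g w)) = ∅ := by
    refine repair_max hf hg hmax id _ _ subset_rfl ?_ ?_ ?_ ?_ ?_ ?_
    · intro w hw
      obtain ⟨_, h1, h2⟩ := mem_filter.1 hw
      refine mem_filter.2 ⟨mem_univ _, fun h => h1 (by have := hCf _ h; rwa [hf.1] at this), ?_⟩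
      rw [hf.1]
      intro h3
      apply h2
      rw [h3, hg.1, ← h3]
    · intro h; exact (mem_filter.1 h).2.1 hu
    · intro h; exact (mem_filter.1 h).2.1 hv
    · intro w hw
      obtain ⟨_, h1, h2⟩ := mem_filter.1 hw
      refine mem_filter.2 ⟨mem_univ _, fun h => h1 (by have := hCg _ h; rwa [hg.1] at this), ?_⟩
      rw [hg.1]
      intro h3
      apply h2
      rw [← h3, hf.1, h3]
    · intro w hw hw'; exact absurd hw hw'
    · intro w hw
      exact (mem_filter.1 hw).2.2
  have : w ∈ (∅ : Finset V) := by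
    rw [← hS]
    exact mem_filter.2 ⟨mem_univ _, hw, hne⟩
  exact absurd this (notMem_empty w)

end rep

/-- The alternating cycle through the two uncovered vertices. -/
theorem exists_cycle [Finite V] {G : SimpleGraph V} {f g : V → V} {u v : V} (hf : NF G f u v)
    (hg : PF G g) : ∃ (m : ℕ) (c : ℤ → V), 0 < m ∧ c 0 = u ∧ c m = v ∧
      (∀ a b, c a = c b ↔ (2 * m : ℤ) ∣ a - b) ∧ (∀ i, f (c i) = c (-i)) ∧
      ∀ i, g (c i) = c (-i - 1) := by
  classical
  let F : Equiv.Perm V := ⟨f, f, hf.1, hf.1⟩
  let P : Equiv.Perm V := ⟨g, g, hg.1, hg.1⟩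
  have hFF : F * F = 1 := Equiv.ext fun w => hf.1 w
  have hPP : P * P = 1 := Equiv.ext fun w => hg.1 w
  have hFi : F⁻¹ = F := inv_eq_of_mul_eq_one_left hFF
  have hPi : P⁻¹ = P := inv_eq_of_mul_eq_one_left hPP
  set π : Equiv.Perm V := F * P with hπ
  have hconj : ∀ i : ℤ, F * π ^ i = π ^ (-i) * F := by
    intro i
    have h1 : F * π * F⁻¹ = π⁻¹ := by
      rw [hπ, mul_inv_rev, hFi, hPi, ← mul_assoc, hFF, one_mul]
    have h2 : F * π ^ i * F⁻¹ = π ^ (-i) := by
      rw [← conj_zpow, h1, inv_zpow, zpow_neg]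
    rw [← h2, inv_mul_cancel_right]
  have hPF : P = F * π := by
    rw [hπ, ← mul_assoc, hFF, one_mul]
  let c : ℤ → V := fun i => (π ^ i) u
  have hc0 : c 0 = u := by simp [c]
  have hfc : ∀ i, f (c i) = c (-i) := by
    intro i
    have h1 := congrArg (fun σ : Equiv.Perm V => σ u) (hconj i)
    simp only [Equiv.Perm.mul_apply] at h1
    have h2 : F u = u := hf.2.2.1
    rw [h2] at h1
    exact h1
  have hgc : ∀ i, g (c i) = c (-i - 1) := by
    intro i
    have h1 : P (c i) = F (c (i + 1)) := by
      rw [hPF]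
      simp only [c, Equiv.Perm.mul_apply]
      rw [add_comm i 1, zpow_add, zpow_one]
      rfl
    have h2 : F (c (i + 1)) = c (-(i + 1)) := hfc (i + 1)
    have h3 : -(i + 1) = -i - 1 := by ring
    rw [h3] at h2
    exact h1.trans h2
  set N := Function.minimalPeriod (π • · : V → V) u with hN
  have hNpos : 0 < N := by
    have hper : u ∈ Function.periodicPts (π • · : V → V) :=
      Function.Injective.mem_periodicPts (MulAction.injective π) u
    exact Function.minimalPeriod_pos_of_mem_periodicPts hper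
  have hcc : ∀ a b, c a = c b ↔ (N : ℤ) ∣ a - b := by
    intro a b
    rw [hN, ← MulAction.zpow_smul_eq_iff_minimalPeriod_dvd (a := π) (b := u)]
    simp only [c, Equiv.Perm.smul_def]
    rw [sub_eq_neg_add, zpow_add, Equiv.Perm.mul_apply, zpow_neg, Equiv.Perm.inv_eq_iff_eq]
  rcases Nat.even_or_odd' N with ⟨m, hm | hm⟩
  · refine ⟨m, c, by omega, hc0, ?_, ?_, hfc, hgc⟩
    · by_contra hne
      have h1 : c m ≠ u := by
        rw [← hc0]
        intro h
        rw [hcc] at h
        have := Int.le_of_dvd (by omega) h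
        omega
      have h2 := hf.2.2.2.2 (c m) h1 hne
      rw [hfc] at h2
      have h3 : c m = c (-m) := by
        rw [hcc]
        exact ⟨1, by rw [hm]; push_cast; ring⟩
      rw [← h3] at h2
      exact G.loopless.1 _ h2
    · intro a b
      rw [hcc, hm]
      push_cast
      rfl
  · exfalso
    have h2 := hg.2 (c m)
    rw [hgc] at h2
    have h3 : c m = c (-m - 1) := by
      rw [hcc]
      exact ⟨1, by rw [hm]; push_cast; ring⟩
    rw [← h3] at h2
    exact G.loopless.1 _ h2

end Vale.Agent.P308
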