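import Mathlib
import Vale.Agent.P308.Core

/-!
# P308: chords of the alternating cycle
-/

open Finset

namespace Vale.Agent.P308

variable {V : Type*} [Fintype V] [DecidableEq V] {G : SimpleGraph V} {f g : V → V} {u v : V}
  {m : ℕ} {c : ℤ → V}

omit [Fintype V] [DecidableEq V] in
theorem cne (hcc : ∀ a b, c a = c b ↔ (2 * m : ℤ) ∣ a - b) {a b : ℤ} (h1 : b < a)
    (h2 : a - b < 2 * m) : c a ≠ c b := by
  intro h
  rw [hcc] at h
  have := Int.le_of_dvd (by omega) h
  omega

/-- Chord `y i — z j`, `i < j`. -/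
theorem chordA (hf : NF G f u v) (hg : PF G g) (hmax : ∀ g', PF G g' → agr f g' ≤ agr f g)
    (hc0 : c 0 = u) (hcm : c m = v)
    (hcc : ∀ a b, c a = c b ↔ (2 * m : ℤ) ∣ a - b) (hfc : ∀ i, f (c i) = c (-i))
    (hgc : ∀ i, g (c i) = c (-i - 1)) {i j : ℤ} (hi : 0 ≤ i) (hij : i < j) (hj : j < m) :
    ¬ G.Adj (c i) (c (-j - 1)) := by
  intro hadj
  classical
  have hS : (univ.filter (fun w => ∃ t : ℤ, i < t ∧ t ≤ j ∧ (w = c t ∨ w = c (-t)))) = ∅ := by
    refine repair_max hf hg hmax (fun w => if w = c i then c (-j - 1) else c i) _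
      (univ.filter (fun w => ∃ t : ℤ, i ≤ t ∧ t ≤ j ∧ (w = c t ∨ w = c (-t - 1))))
      ?_ ?_ ?_ ?_ ?_ ?_ ?_
    · intro w hw
      obtain ⟨_, t, h1, h2, h3⟩ := mem_filter.1 hw
      rcases h3 with h3 | h3
      · exact mem_filter.2 ⟨mem_univ _, t, by omega, h2, Or.inl h3⟩
      · refine mem_filter.2 ⟨mem_univ _, t - 1, by omega, by omega, Or.inr ?_⟩
        rw [h3]; congr 1; ring
    · intro w hw
      obtain ⟨_, t, h1, h2, h3⟩ := mem_filter.1 hw
      refine mem_filter.2 ⟨mem_univ _, t, h1, h2, ?_⟩
      rcases h3 with h3 | h3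
      · right; rw [h3, hfc]
      · left; rw [h3, hfc, neg_neg]
    · intro hw
      obtain ⟨_, t, h1, h2, h3⟩ := mem_filter.1 hw
      rw [← hc0] at h3
      rcases h3 with h3 | h3
      · exact cne hcc (by omega) (by omega) h3.symm
      · exact cne hcc (by omega) (by omega) h3
    · intro hw
      obtain ⟨_, t, h1, h2, h3⟩ := mem_filter.1 hw
      rw [← hcm] at h3
      rcases h3 with h3 | h3
      · exact cne hcc (by omega) (by omega) h3
      · exact cne hcc (by omega) (by omega) h3
    · intro w hw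
      obtain ⟨_, t, h1, h2, h3⟩ := mem_filter.1 hw
      refine mem_filter.2 ⟨mem_univ _, t, h1, h2, ?_⟩
      rcases h3 with h3 | h3
      · right; rw [h3, hgc]
      · left; rw [h3, hgc]; congr 1; ring
    · intro w hw hw'
      obtain ⟨_, t, h1, h2, h3⟩ := mem_filter.1 hw
      have hR : w = c i ∨ w = c (-j - 1) := by
        rcases h3 with h3 | h3
        · by_cases ht : t = i
          · left; rw [h3, ht]
          · exact absurd (mem_filter.2 ⟨mem_univ _, t, by omega, h2, Or.inl h3⟩) hw'
        · by_cases ht : t = j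
          · right; rw [h3, ht]
          · refine absurd (mem_filter.2 ⟨mem_univ _, t + 1, by omega, by omega, Or.inr ?_⟩) hw'
            rw [h3]; congr 1; ring
      have hne : c (-j - 1) ≠ c i := (cne hcc (by omega) (by omega)).symm
      have hiT : c i ∈ (univ.filter (fun w => ∃ t : ℤ, i ≤ t ∧ t ≤ j ∧
          (w = c t ∨ w = c (-t - 1)))) := mem_filter.2 ⟨mem_univ _, i, le_refl _, by omega, Or.inl rfl⟩
      have hjT : c (-j - 1) ∈ (univ.filter (fun w => ∃ t : ℤ, i ≤ t ∧ t ≤ j ∧
          (w = c t ∨ w = c (-t - 1)))) := mem_filter.2 ⟨mem_univ _, j, by omega, le_refl _, Or.inr rfl⟩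
      have hiS : c i ∉ (univ.filter (fun w => ∃ t : ℤ, i < t ∧ t ≤ j ∧ (w = c t ∨ w = c (-t)))) := by
        intro h
        obtain ⟨_, t, h1, h2, h3⟩ := mem_filter.1 h
        rcases h3 with h3 | h3
        · exact cne hcc (by omega) (by omega) h3.symm
        · exact cne hcc (by omega) (by omega) h3
      have hjS : c (-j - 1) ∉ (univ.filter (fun w => ∃ t : ℤ, i < t ∧ t ≤ j ∧
          (w = c t ∨ w = c (-t)))) := by
        intro h
        obtain ⟨_, t, h1, h2, h3⟩ := mem_filter.1 h
        rcases h3 with h3 | h3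
        · exact cne hcc (by omega) (by omega) h3.symm
        · exact cne hcc (by omega) (by omega) h3.symm
      rcases hR with hR | hR
      · subst hR
        simp only [if_true, hne, if_false]
        exact ⟨hjT, hjS, trivial, hadj⟩
      · subst hR
        simp only [if_true, hne, if_false]
        exact ⟨hiT, hiS, trivial, hadj.symm⟩
    · intro w hw
      obtain ⟨_, t, h1, h2, h3⟩ := mem_filter.1 hw
      rcases h3 with h3 | h3
      · rw [h3, hfc, hgc]
        exact cne hcc (by omega) (by omega)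
      · rw [h3, hfc, hgc]
        exact cne hcc (by omega) (by omega)
  have : c j ∈ (∅ : Finset V) := by
    rw [← hS]
    exact mem_filter.2 ⟨mem_univ _, j, hij, le_refl _, Or.inl rfl⟩
  exact absurd this (notMem_empty _)

/-- Chords `y i — y j` and `z (j - 1) — z q`, `i < j < q`. -/
theorem chordB (hf : NF G f u v) (hg : PF G g) (hmax : ∀ g', PF G g' → agr f g' ≤ agr f g)
    (hc0 : c 0 = u) (hcm : c m = v)
    (hcc : ∀ a b, c a = c b ↔ (2 * m : ℤ) ∣ a - b) (hfc : ∀ i, f (c i) = c (-i))
    (hgc : ∀ i, g (c i) = c (-i - 1)) {i j q : ℤ} (hi : 0 ≤ i) (hij : i < j) (hjq : j < q)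
    (hq : q < m) (hadj : G.Adj (c i) (c j)) : ¬ G.Adj (c (-j)) (c (-q - 1)) := by
  intro hadj'
  classical
  have hS : (univ.filter (fun w => ∃ t : ℤ, i < t ∧ t ≤ q ∧ t ≠ j ∧
      (w = c t ∨ w = c (-t)))) = ∅ := by
    refine repair_max hf hg hmax (fun w => if w = c i then c j else if w = c j then c i else
        if w = c (-j) then c (-q - 1) else c (-j)) _
      (univ.filter (fun w => ∃ t : ℤ, i ≤ t ∧ t ≤ q ∧ (w = c t ∨ w = c (-t - 1))))
      ?_ ?_ ?_ ?_ ?_ ?_ ?_
    · intro w hw
      obtain ⟨_, t, h1, h2, _, h3⟩ := mem_filter.1 hw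
      rcases h3 with h3 | h3
      · exact mem_filter.2 ⟨mem_univ _, t, by omega, h2, Or.inl h3⟩
      · refine mem_filter.2 ⟨mem_univ _, t - 1, by omega, by omega, Or.inr ?_⟩
        rw [h3]; congr 1; ring
    · intro w hw
      obtain ⟨_, t, h1, h2, h4, h3⟩ := mem_filter.1 hw
      refine mem_filter.2 ⟨mem_univ _, t, h1, h2, h4, ?_⟩
      rcases h3 with h3 | h3
      · right; rw [h3, hfc]
      · left; rw [h3, hfc, neg_neg]
    · intro hw
      obtain ⟨_, t, h1, h2, _, h3⟩ := mem_filter.1 hw
      rw [← hc0] at h3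
      rcases h3 with h3 | h3
      · exact cne hcc (by omega) (by omega) h3.symm
      · exact cne hcc (by omega) (by omega) h3
    · intro hw
      obtain ⟨_, t, h1, h2, _, h3⟩ := mem_filter.1 hw
      rw [← hcm] at h3
      rcases h3 with h3 | h3
      · exact cne hcc (by omega) (by omega) h3
      · exact cne hcc (by omega) (by omega) h3
    · intro w hw
      obtain ⟨_, t, h1, h2, h3⟩ := mem_filter.1 hw
      refine mem_filter.2 ⟨mem_univ _, t, h1, h2, ?_⟩
      rcases h3 with h3 | h3
      · right; rw [h3, hgc]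
      · left; rw [h3, hgc]; congr 1; ring
    · intro w hw hw'
      obtain ⟨_, t, h1, h2, h3⟩ := mem_filter.1 hw
      have hR : w = c i ∨ w = c j ∨ w = c (-j) ∨ w = c (-q - 1) := by
        rcases h3 with h3 | h3
        · by_cases ht : t = i
          · left; rw [h3, ht]
          · by_cases ht' : t = j
            · right; left; rw [h3, ht']
            · exact absurd (mem_filter.2 ⟨mem_univ _, t, by omega, h2, ht', Or.inl h3⟩) hw'
        · by_cases ht : t = q
          · right; right; right; rw [h3, ht]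
          · by_cases ht' : t + 1 = j
            · right; right; left; rw [h3]; congr 1; omega
            · refine absurd (mem_filter.2 ⟨mem_univ _, t + 1, by omega, by omega, ht',
                Or.inr ?_⟩) hw'
              rw [h3]; congr 1; ring
      have n1 : c j ≠ c i := cne hcc (by omega) (by omega)
      have n2 : c (-j) ≠ c i := (cne hcc (by omega) (by omega)).symm
      have n3 : c (-q - 1) ≠ c i := (cne hcc (by omega) (by omega)).symm
      have n4 : c (-j) ≠ c j := (cne hcc (by omega) (by omega)).symm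
      have n5 : c (-q - 1) ≠ c j := (cne hcc (by omega) (by omega)).symm
      have n6 : c (-q - 1) ≠ c (-j) := (cne hcc (by omega) (by omega)).symm
      have memT : ∀ t, i ≤ t → t ≤ q → c t ∈ (univ.filter (fun w => ∃ t : ℤ, i ≤ t ∧ t ≤ q ∧
          (w = c t ∨ w = c (-t - 1)))) :=
        fun t h1 h2 => mem_filter.2 ⟨mem_univ _, t, h1, h2, Or.inl rfl⟩
      have memT' : ∀ t, i ≤ t → t ≤ q → c (-t - 1) ∈ (univ.filter (fun w => ∃ t : ℤ, i ≤ t ∧
          t ≤ q ∧ (w = c t ∨ w = c (-t - 1)))) :=
        fun t h1 h2 => mem_filter.2 ⟨mem_univ _, t, h1, h2, Or.inr rfl⟩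
      have hjT : c (-j) ∈ (univ.filter (fun w => ∃ t : ℤ, i ≤ t ∧
          t ≤ q ∧ (w = c t ∨ w = c (-t - 1)))) := by
        have := memT' (j - 1) (by omega) (by omega)
        have h4 : -(j - 1) - 1 = -j := by ring
        rwa [h4] at this
      have nS : ∀ s : ℤ, (∀ t, i < t → t ≤ q → t ≠ j → c s ≠ c t ∧ c s ≠ c (-t)) →
          c s ∉ (univ.filter (fun w => ∃ t : ℤ, i < t ∧ t ≤ q ∧ t ≠ j ∧
            (w = c t ∨ w = c (-t)))) := by
        intro s hs h
        obtain ⟨_, t, h1, h2, h4, h3⟩ := mem_filter.1 h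
        rcases h3 with h3 | h3
        · exact (hs t h1 h2 h4).1 h3
        · exact (hs t h1 h2 h4).2 h3
      have hiS := nS i fun t h1 h2 h4 =>
        ⟨(cne hcc (by omega) (by omega)).symm, cne hcc (by omega) (by omega)⟩
      have hjS := nS j fun t h1 h2 h4 =>
        ⟨by
          rcases lt_or_gt_of_ne h4 with h5 | h5
          · exact cne hcc h5 (by omega)
          · exact (cne hcc h5 (by omega)).symm, cne hcc (by omega) (by omega)⟩
      have hjS' := nS (-j) fun t h1 h2 h4 =>
        ⟨(cne hcc (by omega) (by omega)).symm, by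
          rcases lt_or_gt_of_ne h4 with h5 | h5
          · exact (cne hcc (by omega) (by omega)).symm
          · exact cne hcc (by omega) (by omega)⟩
      have hqS := nS (-q - 1) fun t h1 h2 h4 =>
        ⟨(cne hcc (by omega) (by omega)).symm, (cne hcc (by omega) (by omega)).symm⟩
      rcases hR with hR | hR | hR | hR
      · subst hR
        simp only [if_true, n1, if_false]
        exact ⟨memT j (by omega) (by omega), hjS, trivial, hadj⟩
      · subst hR
        simp only [if_true, n1, if_false]
        exact ⟨memT i (by omega) (by omega), hiS, trivial, hadj.symm⟩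
      · subst hR
        simp only [if_true, n2, n3, n4, n5, n6, if_false]
        exact ⟨memT' q (by omega) (by omega), hqS, trivial, hadj'⟩
      · subst hR
        simp only [if_true, n2, n3, n4, n5, n6, if_false]
        exact ⟨hjT, hjS', trivial, hadj'.symm⟩
    · intro w hw
      obtain ⟨_, t, h1, h2, h3⟩ := mem_filter.1 hw
      rcases h3 with h3 | h3
      · rw [h3, hfc, hgc]
        exact cne hcc (by omega) (by omega)
      · rw [h3, hfc, hgc]
        exact cne hcc (by omega) (by omega)
  have : c q ∈ (∅ : Finset V) := by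
    rw [← hS]
    exact mem_filter.2 ⟨mem_univ _, q, by omega, le_refl _, by omega, Or.inl rfl⟩
  exact absurd this (notMem_empty _)

end Vale.Agent.P308
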