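import Mathlib
import Vale.Agent.P308.Chord

/-!
# P308: the length of the alternating cycle
-/

open Finset

namespace Vale.Agent.P308

variable {V : Type*} [Fintype V] [DecidableEq V] {G : SimpleGraph V} {f g : V → V} {u v : V}
  {m : ℕ} {c : ℤ → V}

theorem m_le (hf : NF G f u v) (hg : PF G g) (hmax : ∀ g', PF G g' → agr f g' ≤ agr f g)
    (hc0 : c 0 = u) (hcm : c m = v)
    (hcc : ∀ a b, c a = c b ↔ (2 * m : ℤ) ∣ a - b) (hfc : ∀ i, f (c i) = c (-i))
    (hgc : ∀ i, g (c i) = c (-i - 1)) {k : ℕ} (hk : ¬ TriangularMatching G (k + 1)) :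
    m ≤ 3 * k := by
  classical
  have hA : ∀ i j : ℕ, i < j → j < m → ¬ G.Adj (c i) (c (-j - 1)) := fun i j h1 h2 =>
    chordA hf hg hmax hc0 hcm hcc hfc hgc (by omega) (by omega) (by omega)
  have hB : ∀ i j q : ℕ, i < j → j < q → q < m → G.Adj (c i) (c j) →
      ¬ G.Adj (c (-j)) (c (-q - 1)) := fun i j q h1 h2 h3 h4 =>
    chordB hf hg hmax hc0 hcm hcc hfc hgc (by omega) (by omega) (by omega) (by omega) h4
  have hyz : ∀ i : ℤ, G.Adj (c i) (c (-i - 1)) := fun i => by
    have := hg.2 (c i); rwa [hgc] at this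
  -- the first kind
  have h1 : ((range m).filter (fun j : ℕ => ∀ i < j, ¬ G.Adj (c i) (c j))).card ≤ k := by
    by_contra hlt
    push Not at hlt
    set J := (range m).filter (fun j : ℕ => ∀ i < j, ¬ G.Adj (c i) (c j)) with hJ
    have hlt' : k + 1 ≤ J.card := hlt
    apply hk
    refine ⟨fun t => c (J.orderEmbOfCardLe hlt' t : ℕ), fun t => c (-(J.orderEmbOfCardLe hlt' t : ℕ) - 1),
      fun t => hyz _, ?_⟩
    intro s t hst
    have hs := (J.orderEmbOfCardLe hlt').strictMono hst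
    have hm2 := mem_filter.1 (J.orderEmbOfCardLe_mem hlt' t)
    exact ⟨hm2.2 _ hs, hA _ _ hs (mem_range.1 hm2.1)⟩
  -- the second kind
  have h2 : ∀ p : ℕ, ((range m).filter (fun j : ℕ => j % 2 = p ∧
      ∃ i < j, G.Adj (c i) (c j))).card ≤ k := by
    intro p
    by_contra hlt
    push Not at hlt
    set J := (range m).filter (fun j : ℕ => j % 2 = p ∧ ∃ i < j, G.Adj (c i) (c j)) with hJ
    have hlt' : k + 1 ≤ J.card := hlt
    apply hk
    refine ⟨fun t => c (-((J.orderEmbOfCardLe hlt' t.rev : ℕ) : ℤ)),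
      fun t => c (((J.orderEmbOfCardLe hlt' t.rev : ℕ) : ℤ) - 1), ?_, ?_⟩
    · intro t
      have := hyz (((J.orderEmbOfCardLe hlt' t.rev : ℕ) : ℤ) - 1)
      have h4 : -(((J.orderEmbOfCardLe hlt' t.rev : ℕ) : ℤ) - 1) - 1 =
        -((J.orderEmbOfCardLe hlt' t.rev : ℕ) : ℤ) := by ring
      rw [h4] at this
      exact this.symm
    · intro s t hst
      have hs := (J.orderEmbOfCardLe hlt').strictMono (Fin.rev_lt_rev.2 hst)
      obtain ⟨hr1, hp1, i1, hi1, ha1⟩ := mem_filter.1 (J.orderEmbOfCardLe_mem hlt' t.rev)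
      obtain ⟨hr2, hp2, i2, hi2, ha2⟩ := mem_filter.1 (J.orderEmbOfCardLe_mem hlt' s.rev)
      beta_reduce
      generalize J.orderEmbOfCardLe hlt' t.rev = a at *
      generalize J.orderEmbOfCardLe hlt' s.rev = b at *
      have hr1' := mem_range.1 hr1
      have hr2' := mem_range.1 hr2
      have hb1 : ((b - 1 : ℕ) : ℤ) = (b : ℤ) - 1 := by omega
      have ha1' : ((a - 1 : ℕ) : ℤ) = (a : ℤ) - 1 := by omega
      constructor
      · intro hadj
        have h5 := hB i1 a (b - 1) hi1 (by omega) (by omega) ha1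
        rw [hb1] at h5
        have h6 : -((b : ℤ) - 1) - 1 = -(b : ℤ) := by ring
        rw [h6] at h5
        exact h5 hadj.symm
      · intro hadj
        have h5 := hA (a - 1) (b - 1) (by omega) (by omega)
        rw [hb1, ha1'] at h5
        have h6 : -((b : ℤ) - 1) - 1 = -(b : ℤ) := by ring
        rw [h6] at h5
        exact h5 hadj.symm
  have h3 : range m ⊆ (range m).filter (fun j : ℕ => ∀ i < j, ¬ G.Adj (c i) (c j)) ∪
      ((range m).filter (fun j : ℕ => j % 2 = 0 ∧ ∃ i < j, G.Adj (c i) (c j)) ∪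
        (range m).filter (fun j : ℕ => j % 2 = 1 ∧ ∃ i < j, G.Adj (c i) (c j))) := by
    intro j hj
    by_cases h : ∀ i < j, ¬ G.Adj (c i) (c j)
    · exact mem_union_left _ (mem_filter.2 ⟨hj, h⟩)
    · push Not at h
      obtain ⟨i, hi, ha⟩ := h
      rcases Nat.mod_two_eq_zero_or_one j with h0 | h0
      · exact mem_union_right _ (mem_union_left _ (mem_filter.2 ⟨hj, h0, i, hi, ha⟩))
      · exact mem_union_right _ (mem_union_right _ (mem_filter.2 ⟨hj, h0, i, hi, ha⟩))
  have h4 := card_le_card h3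
  have h5 := card_union_le ((range m).filter (fun j : ℕ => ∀ i < j, ¬ G.Adj (c i) (c j)))
    ((range m).filter (fun j : ℕ => j % 2 = 0 ∧ ∃ i < j, G.Adj (c i) (c j)) ∪
        (range m).filter (fun j : ℕ => j % 2 = 1 ∧ ∃ i < j, G.Adj (c i) (c j)))
  have h6 := card_union_le ((range m).filter (fun j : ℕ => j % 2 = 0 ∧
      ∃ i < j, G.Adj (c i) (c j)))
        ((range m).filter (fun j : ℕ => j % 2 = 1 ∧ ∃ i < j, G.Adj (c i) (c j)))
  have h7 := h2 0
  have h8 := h2 1
  rw [card_range] at h4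
  omega

/-- The data that determine `f` from `g`. -/
def Code (g : V → V) (m : ℕ) (y : ℕ → V) (f : V → V) : Prop :=
  0 < m ∧ f (y 0) = y 0 ∧
    (∀ t, t + 1 < m → f (g (y t)) = y (t + 1) ∧ f (y (t + 1)) = g (y t)) ∧
    (∀ t, t + 1 = m → f (g (y t)) = g (y t)) ∧
    ∀ w, (∀ t < m, w ≠ y t ∧ w ≠ g (y t)) → f w = g w

omit [Fintype V] [DecidableEq V] in
theorem Code.unique {f' : V → V} {y y' : ℕ → V} (h : Code g m y f) (h' : Code g m y' f')
    (hy : ∀ t < m, y t = y' t) : f = f' := by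
  obtain ⟨h0, h1, h2, h3, h4⟩ := h
  obtain ⟨_, h1', h2', h3', h4'⟩ := h'
  funext w
  by_cases hw : ∀ t < m, w ≠ y t ∧ w ≠ g (y t)
  · rw [h4 w hw, h4' w fun t ht => by rw [← hy t ht]; exact hw t ht]
  · push Not at hw
    obtain ⟨t, ht, hw⟩ := hw
    by_cases hwt : w = y t
    · rcases t with _ | t
      · have := hy 0 h0
        rw [hwt, h1, this, h1']
      · have e1 := hy (t + 1) ht
        have e2 := hy t (by omega)
        rw [hwt, (h2 t ht).2, e1, (h2' t ht).2, e2]
    · have hwg := hw hwt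
      have e2 := hy t ht
      by_cases hl : t + 1 = m
      · rw [hwg, h3 t hl, e2, h3' t hl]
      · have hl' : t + 1 < m := by omega
        rw [hwg, (h2 t hl').1, hy (t + 1) hl', e2, (h2' t hl').1]

/-- Every near-perfect matching has a code of length at most `3 k`. -/
theorem exists_code (hf : NF G f u v) (hex : ∃ g, PF G g) {k : ℕ}
    (hk : ¬ TriangularMatching G (k + 1)) :
    ∃ (g : V → V) (m : ℕ) (y : ℕ → V), PF G g ∧ m ≤ 3 * k ∧ m < Fintype.card V ∧
      Code g m y f := by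
  classical
  obtain ⟨g0, hg0⟩ := hex
  have : Nonempty {g : V → V // PF G g} := ⟨⟨g0, hg0⟩⟩
  obtain ⟨⟨g, hg⟩, hmax⟩ := Finite.exists_max (fun g : {g : V → V // PF G g} => agr f g.1)
  have hmax' : ∀ g', PF G g' → agr f g' ≤ agr f g := fun g' hg' => hmax ⟨g', hg'⟩
  obtain ⟨m, c, hm, hc0, hcm, hcc, hfc, hgc⟩ := exists_cycle hf hg
  refine ⟨g, m, fun t => c t, hg, m_le hf hg hmax' hc0 hcm hcc hfc hgc hk, ?_, hm, ?_, ?_, ?_, ?_⟩
  · -- the vertices of the cycle are distinct
    have hinj : Function.Injective (fun t : Fin (m + 1) => c (t : ℕ)) := by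
      intro a b hab
      by_contra hne
      have hne' : (a : ℕ) ≠ b := fun h => hne (Fin.ext h)
      rcases lt_or_gt_of_ne hne' with h | h
      · exact cne hcc (a := (b : ℕ)) (b := (a : ℕ)) (by omega) (by omega) hab.symm
      · exact cne hcc (a := (a : ℕ)) (b := (b : ℕ)) (by omega) (by omega) hab
    have := Fintype.card_le_of_injective _ hinj
    rw [Fintype.card_fin] at this
    omega
  · have := hfc 0
    simpa using this
  · intro t ht
    constructor
    · show f (g (c t)) = c ((t + 1 : ℕ) : ℤ)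
      rw [hgc, hfc]
      congr 1
      push_cast
      ring
    · show f (c ((t + 1 : ℕ) : ℤ)) = g (c t)
      rw [hgc, hfc]
      congr 1
      push_cast
      ring
  · intro t ht
    show f (g (c t)) = g (c t)
    rw [hgc, hfc, hcc]
    exact ⟨1, by rw [← ht]; push_cast; ring⟩
  · intro w hw
    refine agree_off hf hg hmax' (fun w => ∃ i, w = c i) ?_ ?_ ⟨0, hc0.symm⟩ ⟨m, hcm.symm⟩ w ?_
    · rintro w ⟨i, rfl⟩; exact ⟨-i, hfc i⟩
    · rintro w ⟨i, rfl⟩; exact ⟨-i - 1, hgc i⟩
    · rintro ⟨i, rfl⟩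
      -- reduce `i` modulo `2 m`
      have h1 : c i = c (i % (2 * m)) := by
        rw [hcc]
        exact Int.dvd_self_sub_emod
      have h2 : 0 ≤ i % (2 * m) := Int.emod_nonneg _ (by omega)
      have h3 : i % (2 * m) < 2 * m := Int.emod_lt_of_pos _ (by omega)
      by_cases h4 : i % (2 * m) < m
      · refine (hw (i % (2 * m)).toNat (by omega)).1 ?_
        beta_reduce
        rw [h1, Int.toNat_of_nonneg h2]
      · refine (hw (2 * m - 1 - i % (2 * m)).toNat (by omega)).2 ?_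
        beta_reduce
        rw [Int.toNat_of_nonneg (by omega), hgc, h1, hcc]
        exact ⟨1, by ring⟩

end Vale.Agent.P308
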