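import Mathlib
import Vale.Agent.P308.Bound

/-!
# P308: counting near-perfect matchings
-/

open Finset

namespace Vale.Agent.P308

variable {V : Type*} {G : SimpleGraph V}

open Classical in
/-- partner function of a matching -/
noncomputable def partner (M : G.Subgraph) (v : V) : V :=
  if h : ∃ w, M.Adj v w then h.choose else v

theorem partner_of_not {M : G.Subgraph} {v : V} (h : v ∉ M.verts) : partner M v = v := by
  unfold partner
  rw [dif_neg]
  rintro ⟨w, hw⟩
  exact h (M.edge_vert hw)

theorem partner_adj {M : G.Subgraph} (hM : M.IsMatching) {v : V} (h : v ∈ M.verts) :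
    M.Adj v (partner M v) := by
  have h1 : ∃ w, M.Adj v w := (hM h).exists
  unfold partner
  rw [dif_pos h1]
  exact h1.choose_spec

theorem partner_eq {M : G.Subgraph} (hM : M.IsMatching) {v w : V} (h : M.Adj v w) :
    partner M v = w :=
  (hM (M.edge_vert h)).unique (partner_adj hM (M.edge_vert h)) h

theorem partner_partner {M : G.Subgraph} (hM : M.IsMatching) (v : V) :
    partner M (partner M v) = v := by
  by_cases h : v ∈ M.verts
  · exact partner_eq hM (partner_adj hM h).symm
  · rw [partner_of_not h, partner_of_not h]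

theorem partner_inj {M M' : G.Subgraph} (hM : M.IsMatching) (hM' : M'.IsMatching)
    (h : partner M = partner M') : M = M' := by
  have key : ∀ {N N' : G.Subgraph}, N.IsMatching → N'.IsMatching → partner N = partner N' →
      ∀ v, v ∈ N.verts → N'.Adj v (partner N v) := by
    intro N N' hN hN' hp v hv
    have h1 : partner N v ≠ v := (N.adj_sub (partner_adj hN hv)).ne'
    have h2 : v ∈ N'.verts := by
      by_contra h2
      apply h1
      rw [hp, partner_of_not h2]
    rw [hp]
    exact partner_adj hN' h2
  have hadj : ∀ {N N' : G.Subgraph}, N.IsMatching → N'.IsMatching → partner N = partner N' →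
      ∀ v w, N.Adj v w → N'.Adj v w := by
    intro N N' hN hN' hp v w hvw
    have h1 := key hN hN' hp v (N.edge_vert hvw)
    rwa [partner_eq hN hvw] at h1
  refine SimpleGraph.Subgraph.ext ?_ ?_
  · ext v
    exact ⟨fun hv => M'.edge_vert (key hM hM' h v hv),
      fun hv => M.edge_vert (key hM' hM h.symm v hv)⟩
  · funext v w
    exact propext ⟨hadj hM hM' h v w, hadj hM' hM h.symm v w⟩

theorem partner_PF {M : G.Subgraph} (hM : M.IsPerfectMatching) : PF G (partner M) :=
  ⟨partner_partner hM.1, fun w => M.adj_sub (partner_adj hM.1 (hM.2 w))⟩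

theorem partner_NF {M : G.Subgraph} (hM : M.IsMatching) (h2 : (M.vertsᶜ).ncard = 2) :
    ∃ u v, NF G (partner M) u v := by
  obtain ⟨u, v, huv, hs⟩ := Set.ncard_eq_two.1 h2
  have hu : u ∉ M.verts := by
    have : u ∈ M.vertsᶜ := by rw [hs]; exact Set.mem_insert _ _
    exact this
  have hv : v ∉ M.verts := by
    have : v ∈ M.vertsᶜ := by rw [hs]; exact Set.mem_insert_of_mem _ rfl
    exact this
  refine ⟨u, v, partner_partner hM, huv, partner_of_not hu, partner_of_not hv, ?_⟩
  intro w hwu hwv
  have hw : w ∈ M.verts := by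
    by_contra hw
    have h3 : w ∈ M.vertsᶜ := hw
    rw [hs] at h3
    rcases h3 with h3 | h3
    · exact hwu h3
    · exact hwv h3
  exact M.adj_sub (partner_adj hM hw)

/-- the perfect matching with a given partner function -/
def ofPF {g : V → V} (hg : PF G g) : G.Subgraph where
  verts := Set.univ
  Adj v w := g v = w
  adj_sub := by
    rintro v w rfl
    exact hg.2 v
  edge_vert := fun _ => Set.mem_univ _
  symm := ⟨by
    rintro v w rfl
    exact hg.1 v⟩

theorem ofPF_perfect {g : V → V} (hg : PF G g) : (ofPF hg).IsPerfectMatching :=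
  ⟨fun v _ => ⟨g v, rfl, fun w h => (show g v = w from h).symm⟩, fun v => Set.mem_univ v⟩

theorem card_PF_le [Finite V] : Nat.card {g : V → V // PF G g} ≤ numPerfect G := by
  unfold numPerfect
  refine Nat.card_le_card_of_injective
    (fun g => (⟨ofPF g.2, ofPF_perfect g.2⟩ : {M : G.Subgraph // M.IsPerfectMatching})) ?_
  intro g g' h
  apply Subtype.ext
  funext v
  have h1 : ofPF g.2 = ofPF g'.2 := congrArg Subtype.val h
  have h2 : (ofPF g.2).Adj v (g.1 v) := rfl
  rw [h1] at h2
  exact (show g'.1 v = g.1 v from h2).symm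

theorem card_bound [Fintype V] {k : ℕ} (h0 : 0 < numPerfect G)
    (hk : ¬ TriangularMatching G (k + 1)) :
    numNearPerfect G ≤ Fintype.card V ^ (3 * k + 1) * numPerfect G := by
  classical
  have hex : ∃ g, PF G g := by
    have h1 : Nonempty {M : G.Subgraph // M.IsPerfectMatching} :=
      (Nat.card_pos_iff.1 h0).1
    obtain ⟨M, hM⟩ := h1
    exact ⟨_, partner_PF hM⟩
  have hcode : ∀ M : {M : G.Subgraph // M.IsMatching ∧ (M.vertsᶜ).ncard = 2},
      ∃ (g : V → V) (m : ℕ) (y : ℕ → V), PF G g ∧ m ≤ 3 * k ∧ m < Fintype.card V ∧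
        Code g m y (partner M.1) := by
    intro M
    obtain ⟨u, v, hN⟩ := partner_NF M.2.1 M.2.2
    exact exists_code hN hex hk
  choose g m y hg hm hm' hc using hcode
  have h1 : numNearPerfect G ≤
      Nat.card ({g : V → V // PF G g} × (Fin (Fintype.card V) × (Fin (3 * k) → V))) := by
    unfold numNearPerfect
    refine Nat.card_le_card_of_injective
      (fun M => (⟨g M, hg M⟩, ⟨m M, hm' M⟩, fun t => y M t)) ?_
    intro M M' h
    simp only [Prod.mk.injEq, Subtype.mk.injEq, Fin.mk.injEq] at h
    obtain ⟨e1, e2, e3⟩ := h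
    apply Subtype.ext
    refine partner_inj M.2.1 M'.2.1 ?_
    have hc' := hc M'
    rw [← e1, ← e2] at hc'
    refine (hc M).unique hc' ?_
    intro t ht
    exact congrFun e3 ⟨t, lt_of_lt_of_le ht (hm M)⟩
  rw [Nat.card_prod, Nat.card_prod, Nat.card_eq_fintype_card (α := Fin _), Fintype.card_fin,
    Nat.card_fun, Nat.card_eq_fintype_card (α := V), Nat.card_eq_fintype_card (α := Fin _),
    Fintype.card_fin] at h1
  refine h1.trans ?_
  rw [pow_succ, mul_comm (Fintype.card V ^ (3 * k)), mul_comm]
  exact Nat.mul_le_mul_left _ card_PF_le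

/-- An independent set bounds the triangular matchings, also after a blow-up. -/
theorem not_tri {W : Type*} [Fintype W] {H : SimpleGraph W} (φ : V → W)
    (hφ : ∀ a b, G.Adj a b ↔ H.Adj (φ a) (φ b)) : ¬ TriangularMatching G (H.indepNum + 1) := by
  classical
  rintro ⟨y, z, h1, h2⟩
  have hne : ∀ i j, i < j → φ (y i) ≠ φ (y j) := by
    intro i j hij he
    have h3 := (hφ _ _).1 (h1 j)
    rw [← he] at h3
    exact (h2 i j hij).2 ((hφ _ _).2 h3)
  have hinj : Function.Injective (fun i => φ (y i)) := by
    intro i j hij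
    by_contra hn
    rcases lt_or_gt_of_ne hn with h | h
    · exact hne i j h hij
    · exact hne j i h hij.symm
  have hind : H.IsIndepSet ((univ.image (fun i => φ (y i)) : Finset W) : Set W) := by
    intro a ha b hb hab hadj
    rw [mem_coe, mem_image] at ha hb
    obtain ⟨i, _, rfl⟩ := ha
    obtain ⟨j, _, rfl⟩ := hb
    have hij : i ≠ j := fun h => hab (by rw [h])
    rcases lt_or_gt_of_ne hij with h | h
    · exact (h2 i j h).1 ((hφ _ _).2 hadj)
    · exact (h2 j i h).1 ((hφ _ _).2 hadj.symm)
  have h3 := hind.card_le_indepNum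
  rw [card_image_of_injective _ hinj, card_univ, Fintype.card_fin] at h3
  omega

end Vale.Agent.P308
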